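import Vale.Agent.Lib.P262.Cert3

/-!
P262 (Euclidean vector balancing for signed partial sums): the lower bound
`sigma(d) ≥ sqrt (d + 137/100)` for every `d ≥ 3`, written out with explicit quantifiers.
-/

namespace Vale.Agent.Results.P262.SignedLowerBoundDim3

open Vale.Agent.Lib.P262

/-- For every `d ≥ 3` there is a finite sequence `v` in the Euclidean unit ball of `ℝ^d` such that
every choice of signs has an initial signed sum of norm at least `√(d + 137/100)`. -/
theorem result : ∀ d : ℕ, 3 ≤ d →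
    ∃ (N : ℕ) (v : Fin N → EuclideanSpace ℝ (Fin d)), (∀ i, ‖v i‖ ≤ 1) ∧
      ∀ ε : Fin N → ℝ, (∀ i, ε i = 1 ∨ ε i = -1) →
        ∃ k : ℕ, k ≤ N ∧
          Real.sqrt ((d : ℝ) + 137 / 100) ≤ ‖∑ i : Fin N with i.val < k, ε i • v i‖ := by
  intro d hd
  obtain ⟨N, v, hv, H⟩ := (kills_ge_three d hd).family
  refine ⟨N, v, hv, fun ε hε => ?_⟩
  obtain ⟨k, hk, hr⟩ := H ε hε
  exact ⟨k, hk, Real.sqrt_le_iff.mpr ⟨norm_nonneg _, hr⟩⟩

end Vale.Agent.Results.P262.SignedLowerBoundDim3
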