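import Vale.Agent.Results.P262.PlaneExactValue
import Vale.Agent.Results.P262.SignedLowerBoundDim3

/-!
P262 (Euclidean vector balancing for signed partial sums): the results on `sigma(d)` in one
statement: the exact value `sigma(2) = √3` (upper bound and sharpness) and the lower bound
`sigma(d) ≥ √(d + 137/100)` for every `d ≥ 3`.
-/

namespace Vale.Agent.Results.P262.AllResults

/-- (1) every finite sequence in the Euclidean unit disc has signs for which all initial signed sums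
have norm at most `√3`; (2) no `R < √3` has this property; (3) for every `d ≥ 3` some finite
sequence in the unit ball of `ℝ^d` forces an initial signed sum of norm at least `√(d + 137/100)`. -/
theorem result :
    (∀ (N : ℕ) (v : Fin N → EuclideanSpace ℝ (Fin 2)), (∀ i, ‖v i‖ ≤ 1) →
      ∃ ε : Fin N → ℝ, (∀ i, ε i = 1 ∨ ε i = -1) ∧
        ∀ k : ℕ, k ≤ N → ‖∑ i : Fin N with i.val < k, ε i • v i‖ ≤ Real.sqrt 3) ∧
    (∀ R : ℝ, R < Real.sqrt 3 →
      ∃ (N : ℕ) (v : Fin N → EuclideanSpace ℝ (Fin 2)), (∀ i, ‖v i‖ ≤ 1) ∧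
        ∀ ε : Fin N → ℝ, (∀ i, ε i = 1 ∨ ε i = -1) →
          ∃ k : ℕ, k ≤ N ∧ R < ‖∑ i : Fin N with i.val < k, ε i • v i‖) ∧
    (∀ d : ℕ, 3 ≤ d →
      ∃ (N : ℕ) (v : Fin N → EuclideanSpace ℝ (Fin d)), (∀ i, ‖v i‖ ≤ 1) ∧
        ∀ ε : Fin N → ℝ, (∀ i, ε i = 1 ∨ ε i = -1) →
          ∃ k : ℕ, k ≤ N ∧
            Real.sqrt ((d : ℝ) + 137 / 100) ≤ ‖∑ i : Fin N with i.val < k, ε i • v i‖) :=
  ⟨Vale.Agent.Results.P262.PlaneExactValue.result.1,
    Vale.Agent.Results.P262.PlaneExactValue.result.2,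
    Vale.Agent.Results.P262.SignedLowerBoundDim3.result⟩

end Vale.Agent.Results.P262.AllResults
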