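import Vale.Agent.Lib.P262.Upper2b
import Vale.Agent.Lib.P262.Family

/-!
P262 (Euclidean vector balancing for signed partial sums): the exact value `sigma(2) = √3`,
written out with explicit quantifiers (upper bound for every sequence, and sharpness).
-/

namespace Vale.Agent.Results.P262.PlaneExactValue

open Vale.Agent.Lib.P262

/-- `sigma(2) = √3`: every finite sequence in the Euclidean unit disc has signs for which all
initial signed sums have norm at most `√3`, and no constant `R < √3` has this property. -/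
theorem result :
    (∀ (N : ℕ) (v : Fin N → EuclideanSpace ℝ (Fin 2)), (∀ i, ‖v i‖ ≤ 1) →
      ∃ ε : Fin N → ℝ, (∀ i, ε i = 1 ∨ ε i = -1) ∧
        ∀ k : ℕ, k ≤ N → ‖∑ i : Fin N with i.val < k, ε i • v i‖ ≤ Real.sqrt 3) ∧
    (∀ R : ℝ, R < Real.sqrt 3 →
      ∃ (N : ℕ) (v : Fin N → EuclideanSpace ℝ (Fin 2)), (∀ i, ‖v i‖ ≤ 1) ∧
        ∀ ε : Fin N → ℝ, (∀ i, ε i = 1 ∨ ε i = -1) →
          ∃ k : ℕ, k ≤ N ∧ R < ‖∑ i : Fin N with i.val < k, ε i • v i‖) := by
  constructor
  · intro N v hv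
    obtain ⟨ε, hε, H⟩ := plane_upper N v hv
    exact ⟨ε, hε, fun k hk => Real.le_sqrt_of_sq_le (H k hk)⟩
  · intro R hR
    have hmax : max R 0 < Real.sqrt 3 := max_lt hR (Real.sqrt_pos.mpr (by norm_num))
    have hsq : (max R 0) ^ 2 < 3 := by
      have h1 := Real.sq_sqrt (show (0 : ℝ) ≤ 3 by norm_num)
      have h2 : 0 ≤ max R 0 := le_max_right _ _
      nlinarith
    obtain ⟨N, v, hv, H⟩ := (kills_two (((max R 0) ^ 2 + 3) / 2) (by linarith)).family
    refine ⟨N, v, hv, fun ε hε => ?_⟩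
    obtain ⟨k, hk, hr⟩ := H ε hε
    refine ⟨k, hk, ?_⟩
    have h3 : (max R 0) ^ 2 < ‖∑ i : Fin N with i.val < k, ε i • v i‖ ^ 2 := by linarith
    have h4 : max R 0 < ‖∑ i : Fin N with i.val < k, ε i • v i‖ :=
      lt_of_pow_lt_pow_left₀ 2 (norm_nonneg _) h3
    exact lt_of_le_of_lt (le_max_left _ _) h4

end Vale.Agent.Results.P262.PlaneExactValue
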