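import Vale.Agent.Lib.P262.Family

/-!
P262 (Euclidean vector balancing for signed partial sums): the lower bound
`sigma(d) ≥ sqrt (d + 1)` for every `d ≥ 2`, written out with explicit quantifiers.
-/

namespace Vale.Agent.Results.P262.SignedLowerBound

open Vale.Agent.Lib.P262

/-- For every `d ≥ 2` and every `R < √(d+1)` there is a finite sequence `v` in the Euclidean unit
ball of `ℝ^d` such that every choice of signs has an initial signed sum of norm `> R`. -/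
theorem result : ∀ d : ℕ, 2 ≤ d → ∀ R : ℝ, R < Real.sqrt ((d : ℝ) + 1) →
    ∃ (N : ℕ) (v : Fin N → EuclideanSpace ℝ (Fin d)), (∀ i, ‖v i‖ ≤ 1) ∧
      ∀ ε : Fin N → ℝ, (∀ i, ε i = 1 ∨ ε i = -1) →
        ∃ k : ℕ, k ≤ N ∧ R < ‖∑ i : Fin N with i.val < k, ε i • v i‖ := by
  intro d hd R hR
  have hd0 : (0 : ℝ) ≤ (d : ℝ) + 1 := by positivity
  have hmax : max R 0 < Real.sqrt ((d : ℝ) + 1) :=
    max_lt hR (Real.sqrt_pos.mpr (by positivity))
  have hsq : (max R 0) ^ 2 < (d : ℝ) + 1 := by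
    have h1 := Real.sq_sqrt hd0
    have h2 : 0 ≤ max R 0 := le_max_right _ _
    nlinarith
  obtain ⟨N, v, hv, H⟩ := (kills_of_lt d hd (((max R 0) ^ 2 + ((d : ℝ) + 1)) / 2)
    (by linarith)).family
  refine ⟨N, v, hv, fun ε hε => ?_⟩
  obtain ⟨k, hk, hr⟩ := H ε hε
  refine ⟨k, hk, ?_⟩
  have h3 : (max R 0) ^ 2 < ‖∑ i : Fin N with i.val < k, ε i • v i‖ ^ 2 := by linarith
  have h4 : max R 0 < ‖∑ i : Fin N with i.val < k, ε i • v i‖ :=
    lt_of_pow_lt_pow_left₀ 2 (norm_nonneg _) h3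
  exact lt_of_le_of_lt (le_max_left _ _) h4

end Vale.Agent.Results.P262.SignedLowerBound
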